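import Vale.Agent.Lib.P314.ABP.Sparse

namespace Vale.Agent.Lib.P314.ABP

open Polynomial

variable {K : Type*} [Field K]

/-- The polynomial `h(x z)` written as a polynomial in `x` with coefficients in `K[z]`. -/
noncomputable def tau (h : K[X]) : K[X][X] :=
  ∑ j ∈ h.support, monomial j (monomial j (h.coeff j))

theorem tau_coeff (h : K[X]) (m : ℕ) : (tau h).coeff m = monomial m (h.coeff m) := by
  unfold tau
  rw [finsetSum_coeff]
  simp only [coeff_monomial]
  rw [Finset.sum_ite_eq' h.support m (fun j => monomial j (h.coeff j))]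
  split_ifs with hm
  · rfl
  · rw [notMem_support_iff.mp hm]
    simp

/-- The bivariate polynomial `sum_r G_r(x) H_r(x z)` as a polynomial in `x` over `K[z]`. -/
noncomputable def biF {w : ℕ} (G H : Fin w → K[X]) : K[X][X] :=
  ∑ r, (G r).map C * tau (H r)

theorem biF_coeff {w : ℕ} (G H : Fin w → K[X]) (d j : ℕ) :
    ((biF G H).coeff d).coeff j =
      if j ≤ d then ∑ r, (G r).coeff (d - j) * (H r).coeff j else 0 := by
  unfold biF
  rw [finsetSum_coeff, finsetSum_coeff]
  have key : ∀ r : Fin w, (((G r).map C * tau (H r)).coeff d).coeff j =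
      if j ≤ d then (G r).coeff (d - j) * (H r).coeff j else 0 := by
    intro r
    rw [coeff_mul, Finset.Nat.sum_antidiagonal_eq_sum_range_succ
      (fun a b => ((G r).map C).coeff a * (tau (H r)).coeff b), finsetSum_coeff]
    simp only [coeff_map, tau_coeff, coeff_C_mul, coeff_monomial]
    split_ifs with hjd
    · rw [Finset.sum_eq_single (d - j)]
      · have : d - (d - j) = j := by omega
        simp [this]
      · intro k hk hkne
        have hk' : k < d + 1 := Finset.mem_range.mp hk
        have : d - k ≠ j := by omega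
        simp [this]
      · intro hnot
        exfalso
        apply hnot
        rw [Finset.mem_range]
        omega
    · apply Finset.sum_eq_zero
      intro k hk
      have hk' : k < d + 1 := Finset.mem_range.mp hk
      have : d - k ≠ j := by omega
      simp [this]
  simp only [key]
  split_ifs with hjd
  · rfl
  · simp

/-- The lowest nonvanishing antidiagonal of a sum of `w` products has at most `w` nonzero
entries. -/
theorem biF_support_card {w : ℕ} (G H : Fin w → K[X]) (D : ℕ)
    (hlow : ∀ d < D, (biF G H).coeff d = 0) :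
    ((biF G H).coeff D).support.card ≤ w := by
  classical
  set S := ((biF G H).coeff D).support with hS
  set m := S.card with hm
  let e : Fin m ↪o ℕ := S.orderEmbOfFin rfl
  have heS : ∀ a : Fin m, e a ∈ S := fun a => Finset.orderEmbOfFin_mem S rfl a
  have hle : ∀ a : Fin m, e a ≤ D := by
    intro a
    have h := heS a
    rw [hS, mem_support_iff, biF_coeff] at h
    by_contra hcon
    rw [if_neg hcon] at h
    exact h rfl
  have hne : ∀ a : Fin m, ∑ r, (G r).coeff (D - e a) * (H r).coeff (e a) ≠ 0 := by
    intro a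
    have h := heS a
    rw [hS, mem_support_iff, biF_coeff, if_pos (hle a)] at h
    exact h
  let P : Matrix (Fin m) (Fin w) K := Matrix.of fun a r => (G r).coeff (D - e a)
  let Q : Matrix (Fin w) (Fin m) K := Matrix.of fun r b => (H r).coeff (e b)
  have hPQ : ∀ a b, (P * Q) a b = ∑ r, (G r).coeff (D - e a) * (H r).coeff (e b) := by
    intro a b
    simp [Matrix.mul_apply, P, Q]
  have htri : (P * Q).BlockTriangular id := by
    intro a b hba
    have hba' : b < a := hba
    have hlt : e b < e a := e.strictMono hba'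
    rw [hPQ]
    have hd : D - e a + e b < D := by
      have := hle a
      omega
    have h0 := hlow _ hd
    have h1 := biF_coeff G H (D - e a + e b) (e b)
    rw [h0, coeff_zero, if_pos (Nat.le_add_left _ _)] at h1
    have h2 : D - e a + e b - e b = D - e a := by omega
    rw [h2] at h1
    exact h1.symm
  have hdet : (P * Q).det ≠ 0 := by
    rw [Matrix.det_of_isUpperTriangular htri]
    apply Finset.prod_ne_zero_iff.mpr
    intro a _
    rw [hPQ]
    exact hne a
  have hunit : IsUnit (P * Q) := by
    rw [Matrix.isUnit_iff_isUnit_det]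
    exact isUnit_iff_ne_zero.mpr hdet
  have hrank : (P * Q).rank = Fintype.card (Fin m) := Matrix.rank_of_isUnit _ hunit
  have h1 : (P * Q).rank ≤ P.rank := Matrix.rank_mul_le_left P Q
  have h2 : P.rank ≤ w := Matrix.rank_le_width P
  rw [Fintype.card_fin] at hrank
  omega

/-- Substituting `x = s^w`, `x z = s^w (1 + s)`. -/
noncomputable def epsHom (w : ℕ) : K[X][X] →+* K[X] :=
  eval₂RingHom (compRingHom (1 + X : K[X])) (X ^ w)

theorem epsHom_map_C (w : ℕ) (g : K[X]) : epsHom w (g.map C) = g.comp (X ^ w) := by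
  unfold epsHom
  rw [coe_eval₂RingHom, eval₂_map]
  have : (compRingHom (1 + X : K[X])).comp C = (C : K →+* K[X]) := by
    ext a
    simp
  rw [this]
  rfl

theorem epsHom_tau (w : ℕ) (h : K[X]) :
    epsHom w (tau h) = h.comp (X ^ w + X ^ (w + 1)) := by
  unfold tau
  rw [map_sum, comp_eq_sum_left, Polynomial.sum_def]
  apply Finset.sum_congr rfl
  intro j _
  unfold epsHom
  rw [coe_eval₂RingHom, eval₂_monomial]
  simp only [coe_compRingHom, monomial_comp]
  have : (X ^ w + X ^ (w + 1) : K[X]) = (1 + X) * X ^ w := by ring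
  rw [this, mul_pow]
  ring

theorem epsHom_biF {w : ℕ} (G H : Fin w → K[X]) :
    epsHom w (biF G H) = ∑ r, (G r).comp (X ^ w) * (H r).comp (X ^ w + X ^ (w + 1)) := by
  unfold biF
  rw [map_sum]
  apply Finset.sum_congr rfl
  intro r _
  rw [map_mul, epsHom_map_C, epsHom_tau]

theorem low_dvd (w : ℕ) (F : K[X][X]) (D : ℕ) (hlow : ∀ d < D, F.coeff d = 0)
    (hF : epsHom w F = 0) : (X : K[X]) ^ w ∣ (F.coeff D).comp (1 + X) := by
  obtain ⟨F', hF'⟩ : (X : K[X][X]) ^ D ∣ F := X_pow_dvd_iff.mpr hlow
  have hc : F.coeff D = F'.coeff 0 := by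
    rw [hF']
    have := coeff_X_pow_mul F' D 0
    simpa using this
  have hdiv : F' = divX F' * X + C (F'.coeff 0) := (divX_mul_X_add F').symm
  have hX : epsHom w (X : K[X][X]) = X ^ w := by
    unfold epsHom
    rw [coe_eval₂RingHom, eval₂_X]
  have hC : epsHom w (C (F'.coeff 0)) = (F'.coeff 0).comp (1 + X) := by
    unfold epsHom
    rw [coe_eval₂RingHom, eval₂_C]
    rfl
  rw [hF', map_mul, map_pow, hX] at hF
  have h2 : epsHom w F' = 0 := by
    rcases mul_eq_zero.mp hF with h | h
    · exact absurd h (pow_ne_zero _ (pow_ne_zero _ X_ne_zero))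
    · exact h
  rw [hdiv, map_add, map_mul, hX, hC, ← hc] at h2
  refine ⟨-(epsHom w (divX F')), ?_⟩
  linear_combination h2

theorem dvd_of_comp_dvd (w : ℕ) (p : K[X]) (h : (X : K[X]) ^ w ∣ p.comp (1 + X)) :
    (X - 1 : K[X]) ^ w ∣ p := by
  obtain ⟨q, hq⟩ := h
  have h1 : (p.comp (1 + X)).comp (X - 1) = p := by
    rw [comp_assoc]
    have : (1 + X : K[X]).comp (X - 1) = X := by
      simp
    rw [this, comp_X]
  refine ⟨q.comp (X - 1), ?_⟩
  rw [← h1, hq, mul_comp, pow_comp, X_comp]

/-- The bivariate rank lemma: if a sum of `w` products `G_r(x) H_r(y)` vanishes after the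
substitution `x = s^w`, `y = s^w + s^(w+1)`, then the sum vanishes identically. It holds over
every field in which `1, ..., B` are nonzero, `B` being a bound for the degrees of the `H_r`. -/
theorem bivariate (B : ℕ) (hB : ∀ m : ℕ, 0 < m → m ≤ B → (m : K) ≠ 0)
    (w : ℕ) (G H : Fin w → K[X]) (hH : ∀ r, (H r).natDegree ≤ B)
    (h : ∑ r, (G r).comp (X ^ w) * (H r).comp (X ^ w + X ^ (w + 1)) = 0) :
    ∀ i j : ℕ, ∑ r, (G r).coeff i * (H r).coeff j = 0 := by
  have hF0 : biF G H = 0 := by
    by_contra hne
    set D := (biF G H).natTrailingDegree with hD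
    have hlow : ∀ d < D, (biF G H).coeff d = 0 := fun d hd =>
      coeff_eq_zero_of_lt_natTrailingDegree hd
    have hD0 : (biF G H).coeff D ≠ 0 := by
      have := trailingCoeff_nonzero_iff_nonzero.mpr hne
      exact this
    have hcard := biF_support_card G H D hlow
    have heps : epsHom w (biF G H) = 0 := by rw [epsHom_biF, h]
    have hdvd := dvd_of_comp_dvd w _ (low_dvd w (biF G H) D hlow heps)
    have hdegB : ((biF G H).coeff D).natDegree ≤ B := by
      rw [natDegree_le_iff_coeff_eq_zero]
      intro j hj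
      rw [biF_coeff]
      split_ifs
      · apply Finset.sum_eq_zero
        intro r _
        rw [coeff_eq_zero_of_natDegree_lt (lt_of_le_of_lt (hH r) hj), mul_zero]
      · rfl
    exact hD0 (sparse_not_dvd_of_bound B hB w _ hdegB hdvd hcard)
  intro i j
  have h1 := biF_coeff G H (i + j) j
  rw [hF0, coeff_zero, coeff_zero, if_pos (Nat.le_add_left _ _)] at h1
  have : i + j - j = i := by omega
  rw [this] at h1
  exact h1.symm

end Vale.Agent.Lib.P314.ABP
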