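import Mathlib

namespace Vale.Agent.Lib.P314.ABP

open Matrix

/-- The coefficient that a layered (homogeneous) noncommutative algebraic branching program
of width `w` and length `D` assigns to the word `x_{word 0} x_{word 1} ... x_{word (D-1)}`:
layer `j` contributes the `w × w` transition matrix `A j i` of the letter `i` it reads, the
row vector `u` weights the start nodes and the column vector `v` weights the end nodes. -/
def abpCoeff {F : Type*} [CommSemiring F] {n w D : ℕ}
    (A : Fin D → Fin n → Matrix (Fin w) (Fin w) F) (u v : Fin w → F)
    (word : Fin D → Fin n) : F :=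
  dotProduct u (Matrix.mulVec (List.ofFn fun j => A j (word j)).prod v)

/-- The noncommutative polynomial, homogeneous of degree `D`, computed by the layered branching
program `(A, u, v)` of width `w` and length `D`: the sum over all words of length `D` of the
coefficient of the word times the word. -/
noncomputable def abpPoly {F : Type*} [CommSemiring F] {n w D : ℕ}
    (A : Fin D → Fin n → Matrix (Fin w) (Fin w) F) (u v : Fin w → F) :
    FreeAlgebra F (Fin n) :=
  ∑ word : Fin D → Fin n,
    abpCoeff A u v word • (List.ofFn fun j => FreeAlgebra.ι F (word j)).prod

/-- The natural number `p_{L,j}(c)`: position `j` of a block of `2 ^ L` positions receives the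
value obtained from `c` by applying, for each binary digit of `j` from the top digit down, the
map `c ↦ c ^ w` (digit zero) or `c ↦ c ^ w + c ^ (w + 1)` (digit one). -/
def posVal (w : ℕ) : ℕ → ℕ → ℕ → ℕ
  | 0, _, c => c
  | L + 1, j, c =>
    if j < 2 ^ L then posVal w L j (c ^ w) else posVal w L (j - 2 ^ L) (c ^ w + c ^ (w + 1))

/-- The `c`-th evaluation point: the variable `x_i` is sent to the `(D+1) × (D+1)` matrix whose
only nonzero entries are on the first superdiagonal, the entry in row `a`, column `a + 1` being
the `i`-th power of the natural number `posVal w (Nat.clog 2 D) a c`. -/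
def hitMatrix (F : Type*) [Semiring F] (w D c : ℕ) {n : ℕ} (i : Fin n) :
    Matrix (Fin (D + 1)) (Fin (D + 1)) F :=
  Matrix.of fun a b =>
    if b.val = a.val + 1 then ((posVal w (Nat.clog 2 D) a.val c : ℕ) : F) ^ (i : ℕ) else 0

end Vale.Agent.Lib.P314.ABP
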