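import Vale.Agent.Lib.P314.ABP.Defs

namespace Vale.Agent.Lib.P314.ABP

open Matrix

variable {K : Type*} [Field K] {n : ℕ}

/-- Superdiagonal matrix attached to the letter `i`, with entries `y a ^ i`. -/
def shiftMat (y : ℕ → K) (D : ℕ) (i : Fin n) : Matrix (Fin (D + 1)) (Fin (D + 1)) K :=
  Matrix.of fun a b => if b.val = a.val + 1 then y a.val ^ (i : ℕ) else 0

/-- Standard basis vector number `k`. -/
def evec (K : Type*) [Field K] (D k : ℕ) : Fin (D + 1) → K := fun b => if b.val = k then 1 else 0

/-- Weight of a word read from position `a` on. -/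
def wt (y : ℕ → K) : List (Fin n) → ℕ → K
  | [], _ => 1
  | i :: l, a => y a ^ (i : ℕ) * wt y l (a + 1)

theorem shiftMat_mulVec (y : ℕ → K) (D : ℕ) (i : Fin n) (k : ℕ) (hk : k ≤ D) :
    shiftMat y D i *ᵥ evec K D k =
      if 0 < k then y (k - 1) ^ (i : ℕ) • evec K D (k - 1) else 0 := by
  ext b
  simp only [Matrix.mulVec, dotProduct, shiftMat, evec, Matrix.of_apply]
  rw [Finset.sum_eq_single (⟨k, by omega⟩ : Fin (D + 1))]
  · by_cases hk0 : 0 < k
    · rw [if_pos hk0]
      simp only [Pi.smul_apply, smul_eq_mul]
      by_cases hb : b.val = k - 1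
      · have h1 : k = b.val + 1 := by omega
        simp [h1, evec]
      · have h1 : ¬ (k = b.val + 1) := by omega
        simp [h1, hb, evec]
    · rw [if_neg hk0]
      have h1 : ¬ (k = b.val + 1) := by omega
      simp [h1]
  · intro c _ hc
    have : c.val ≠ k := fun h => hc (Fin.ext h)
    simp [this]
  · intro h
    exact absurd (Finset.mem_univ _) h

theorem prod_mulVec (y : ℕ → K) (D : ℕ) :
    ∀ (l : List (Fin n)) (m : ℕ), m ≤ D →
      (l.map (shiftMat y D)).prod *ᵥ evec K D m =
        if l.length ≤ m then wt y l (m - l.length) • evec K D (m - l.length) else 0 := by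
  intro l
  induction l with
  | nil =>
    intro m _
    simp [wt]
  | cons i l ih =>
    intro m hm
    rw [List.map_cons, List.prod_cons, ← Matrix.mulVec_mulVec, ih m hm]
    by_cases hl : l.length ≤ m
    · rw [if_pos hl, Matrix.mulVec_smul, shiftMat_mulVec y D i _ (by omega)]
      by_cases hl1 : l.length + 1 ≤ m
      · have h0 : 0 < m - l.length := by omega
        rw [if_pos h0, List.length_cons, if_pos hl1]
        have e1 : m - l.length - 1 = m - (l.length + 1) := by omega
        have e2 : m - (l.length + 1) + 1 = m - l.length := by omega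
        rw [e1, wt, e2, smul_smul]
        congr 1
        ring
      · have h0 : ¬ 0 < m - l.length := by omega
        rw [if_neg h0, List.length_cons, if_neg hl1, smul_zero]
    · rw [if_neg hl, Matrix.mulVec_zero, List.length_cons]
      have : ¬ l.length + 1 ≤ m := by omega
      rw [if_neg this]

theorem wt_ofFn (y : ℕ → K) :
    ∀ (D : ℕ) (word : Fin D → Fin n) (a : ℕ),
      wt y (List.ofFn word) a = ∏ j : Fin D, y (a + j) ^ (word j : ℕ) := by
  intro D
  induction D with
  | zero =>
    intro word a
    simp [wt]
  | succ D ih =>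
    intro word a
    rw [List.ofFn_succ, wt, ih, Fin.prod_univ_succ]
    simp only [Fin.val_zero, add_zero, Fin.val_succ]
    congr 1
    apply Finset.prod_congr rfl
    intro j _
    have : a + 1 + (j : ℕ) = a + ((j : ℕ) + 1) := by omega
    rw [this]

/-- The first coordinate of the evaluation of a layered branching program at superdiagonal
matrices, applied to a basis vector. -/
theorem lift_abpPoly_apply {w k : ℕ} (y : ℕ → K) (D : ℕ)
    (A : Fin k → Fin n → Matrix (Fin w) (Fin w) K) (u v : Fin w → K) (m : ℕ) (hm : m ≤ D) :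
    (FreeAlgebra.lift K (shiftMat y D) (abpPoly A u v) *ᵥ evec K D m) 0 =
      if k = m then ∑ word : Fin k → Fin n,
        abpCoeff A u v word * ∏ j : Fin k, y j ^ (word j : ℕ) else 0 := by
  unfold abpPoly
  rw [map_sum, Matrix.sum_mulVec, Finset.sum_apply]
  have key : ∀ word : Fin k → Fin n,
      ((FreeAlgebra.lift K (shiftMat y D))
        (abpCoeff A u v word • (List.ofFn fun j => FreeAlgebra.ι K (word j)).prod) *ᵥ
          evec K D m) 0 =
        if k = m then abpCoeff A u v word * ∏ j : Fin k, y j ^ (word j : ℕ) else 0 := by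
    intro word
    rw [map_smul, map_list_prod, List.map_ofFn, Matrix.smul_mulVec]
    have e1 : (List.ofFn ((FreeAlgebra.lift K (shiftMat y D)) ∘ fun j => FreeAlgebra.ι K (word j)))
        = (List.ofFn word).map (shiftMat y D) := by
      rw [List.map_ofFn]
      congr 1
      funext j
      simp
    rw [e1, prod_mulVec y D _ m hm, List.length_ofFn]
    by_cases hkm : k = m
    · subst hkm
      rw [if_pos le_rfl, if_pos rfl, Nat.sub_self, wt_ofFn]
      simp [evec]
    · rw [if_neg hkm]
      by_cases hle : k ≤ m
      · rw [if_pos hle]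
        have : m - k ≠ 0 := by omega
        simp [evec, this.symm]
      · rw [if_neg hle]
        simp
  simp only [key]
  by_cases hkm : k = m
  · simp [hkm]
  · simp [hkm]

end Vale.Agent.Lib.P314.ABP
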