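import Vale.Agent.Lib.P314.ABP.Bivariate

namespace Vale.Agent.Lib.P314.ABP

open Polynomial Matrix

variable {K : Type*} [Field K] {w : ℕ}

/-- A family of coefficient matrices `M e` with attached polynomials `g e` is faithful when a
vanishing combination `sum_e (u M_e v) g_e` forces every bilinear coefficient `u M_e v` to
vanish. -/
def Faithful {ι : Type*} [Fintype ι] (M : ι → Matrix (Fin w) (Fin w) K) (g : ι → K[X]) : Prop :=
  ∀ u v : Fin w → K, (∑ e, C (u ⬝ᵥ (M e *ᵥ v)) * g e = 0) → ∀ e, u ⬝ᵥ (M e *ᵥ v) = 0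

theorem bil_mul (A B : Matrix (Fin w) (Fin w) K) (u v : Fin w → K) :
    u ⬝ᵥ ((A * B) *ᵥ v) = ∑ r, (u ᵥ* A) r * (B *ᵥ v) r := by
  rw [← Matrix.mulVec_mulVec, Matrix.dotProduct_mulVec]
  rfl

theorem Faithful.equiv {ι ι' : Type*} [Fintype ι] [Fintype ι']
    {M : ι → Matrix (Fin w) (Fin w) K} {g : ι → K[X]} (h : Faithful M g) (σ : ι' ≃ ι) :
    Faithful (fun e => M (σ e)) (fun e => g (σ e)) := by
  intro u v hsum e
  apply h u v
  rw [← hsum]
  exact (Equiv.sum_comp σ (fun e => C (u ⬝ᵥ (M e *ᵥ v)) * g e)).symm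

theorem Faithful.comp_left {ι : Type*} [Fintype ι]
    {M : ι → Matrix (Fin w) (Fin w) K} {g : ι → K[X]} (h : Faithful M g) (hw : 0 < w) :
    Faithful M (fun e => (g e).comp (X ^ w)) := by
  intro u v hsum e
  apply h u v
  have h1 : (∑ e, C (u ⬝ᵥ (M e *ᵥ v)) * g e).comp (X ^ w) = 0 := by
    rw [← hsum]
    simp only [Polynomial.sum_comp, mul_comp, C_comp]
  rw [← expand_eq_comp_X_pow] at h1
  exact (expand_eq_zero hw).mp h1

theorem Faithful.combine (B : ℕ) (hB : ∀ m : ℕ, 0 < m → m ≤ B → (m : K) ≠ 0)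
    {ι₁ ι₂ : Type*} [Fintype ι₁] [Fintype ι₂]
    {M₁ : ι₁ → Matrix (Fin w) (Fin w) K} {g₁ : ι₁ → K[X]}
    {M₂ : ι₂ → Matrix (Fin w) (Fin w) K} {g₂ : ι₂ → K[X]}
    (h₁ : Faithful M₁ g₁) (h₂ : Faithful M₂ g₂) (hg₂ : ∀ e₂, (g₂ e₂).natDegree ≤ B) :
    Faithful (fun e : ι₁ × ι₂ => M₁ e.1 * M₂ e.2)
      (fun e : ι₁ × ι₂ => (g₁ e.1).comp (X ^ w) * (g₂ e.2).comp (X ^ w + X ^ (w + 1))) := by
  intro u v hsum
  set G : Fin w → K[X] := fun r => ∑ e₁, C ((u ᵥ* M₁ e₁) r) * g₁ e₁ with hG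
  set H : Fin w → K[X] := fun r => ∑ e₂, C ((M₂ e₂ *ᵥ v) r) * g₂ e₂ with hH
  have hGH : ∑ r, (G r).comp (X ^ w) * (H r).comp (X ^ w + X ^ (w + 1)) = 0 := by
    rw [← hsum, Fintype.sum_prod_type]
    simp only [hG, hH, Polynomial.sum_comp, mul_comp, C_comp]
    simp only [Finset.sum_mul_sum]
    refine Finset.sum_comm.trans ?_
    refine Finset.sum_congr rfl (fun e₁ _ => ?_)
    refine Finset.sum_comm.trans ?_
    refine Finset.sum_congr rfl (fun e₂ _ => ?_)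
    rw [bil_mul, map_sum, Finset.sum_mul]
    refine Finset.sum_congr rfl (fun r _ => ?_)
    rw [C_mul]
    ring
  have hHB : ∀ r, (H r).natDegree ≤ B := by
    intro r
    simp only [hH]
    apply natDegree_sum_le_of_forall_le
    intro e₂ _
    exact (natDegree_C_mul_le _ _).trans (hg₂ e₂)
  have hbi := bivariate B hB w G H hHB hGH
  have hGc : ∀ r i, (G r).coeff i = ∑ e₁, (u ᵥ* M₁ e₁) r * (g₁ e₁).coeff i := by
    intro r i
    simp only [hG, finsetSum_coeff, coeff_C_mul]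
  have hHc : ∀ r k, (H r).coeff k = ∑ e₂, (M₂ e₂ *ᵥ v) r * (g₂ e₂).coeff k := by
    intro r k
    simp only [hH, finsetSum_coeff, coeff_C_mul]
  -- the vectors v_k
  set vk : ℕ → Fin w → K := fun k r => (H r).coeff k with hvk
  have hA : ∀ k e₁, u ⬝ᵥ (M₁ e₁ *ᵥ vk k) = 0 := by
    intro k
    apply h₁ u (vk k)
    ext i
    rw [finsetSum_coeff, coeff_zero]
    simp only [coeff_C_mul]
    have : ∀ e₁, u ⬝ᵥ (M₁ e₁ *ᵥ vk k) * (g₁ e₁).coeff i
        = ∑ r, (u ᵥ* M₁ e₁) r * (g₁ e₁).coeff i * (H r).coeff k := by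
      intro e₁
      rw [Matrix.dotProduct_mulVec]
      simp only [dotProduct, hvk, Finset.sum_mul]
      apply Finset.sum_congr rfl
      intro r _
      ring
    simp only [this]
    rw [Finset.sum_comm]
    rw [← hbi i k]
    apply Finset.sum_congr rfl
    intro r _
    rw [hGc, Finset.sum_mul]
  intro e
  obtain ⟨e₁, e₂⟩ := e
  show u ⬝ᵥ ((M₁ e₁ * M₂ e₂) *ᵥ v) = 0
  rw [← Matrix.mulVec_mulVec, Matrix.dotProduct_mulVec]
  apply h₂ (u ᵥ* M₁ e₁) v
  ext k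
  rw [finsetSum_coeff, coeff_zero]
  simp only [coeff_C_mul]
  have hk := hA k e₁
  rw [Matrix.dotProduct_mulVec] at hk
  rw [← hk]
  simp only [dotProduct, hvk, hHc, Finset.mul_sum, Finset.sum_mul]
  rw [Finset.sum_comm]
  apply Finset.sum_congr rfl
  intro r _
  apply Finset.sum_congr rfl
  intro e₂' _
  simp only [Matrix.mulVec, dotProduct]
  ring

end Vale.Agent.Lib.P314.ABP
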