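import Vale.Agent.Lib.P314.ABP.Pos
import Vale.Agent.Lib.P314.ABP.Eval

namespace Vale.Agent.Lib.P314.ABP

open Polynomial Matrix

variable {K : Type*} [Field K]

theorem eval_posPoly (w : ℕ) :
    ∀ (L j c : ℕ), eval (c : K) (posPoly K w L j) = ((posVal w L j c : ℕ) : K) := by
  intro L
  induction L with
  | zero =>
    intro j c
    simp [posPoly, posVal]
  | succ L ih =>
    intro j c
    by_cases hj : j < 2 ^ L
    · simp only [posPoly, posVal, if_pos hj, eval_comp, eval_pow, eval_X]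
      rw [← Nat.cast_pow, ih]
    · simp only [posPoly, posVal, if_neg hj, eval_comp, eval_pow, eval_X, eval_add]
      rw [← Nat.cast_pow, ← Nat.cast_pow, ← Nat.cast_add, ih]

theorem hitMatrix_eq (w D c : ℕ) {n : ℕ} :
    (hitMatrix K w D c : Fin n → Matrix (Fin (D + 1)) (Fin (D + 1)) K) =
      shiftMat (fun a => ((posVal w (Nat.clog 2 D) a c : ℕ) : K)) D := by
  funext i
  rfl

/-- Comparison of the two forms of the size bound. -/
theorem bound_le (n D w : ℕ) :
    n * D * (w + 1) ^ Nat.clog 2 D + 1 ≤ n * D * (2 * D) ^ Nat.clog 2 (w + 1) + 1 := by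
  rcases Nat.eq_zero_or_pos D with hD | hD
  · subst hD
    simp
  · have h1 : w + 1 ≤ 2 ^ Nat.clog 2 (w + 1) := Nat.le_pow_clog (by norm_num) _
    have h2 : 2 ^ Nat.clog 2 D ≤ 2 * D := by
      rcases Nat.lt_or_ge 1 D with hD1 | hD1
      · have h3 := Nat.pow_pred_clog_lt_self (b := 2) (by norm_num) hD1
        have hpos : 0 < Nat.clog 2 D := Nat.clog_pos (by norm_num) (by omega)
        have h4 : 2 ^ Nat.clog 2 D = 2 * 2 ^ (Nat.clog 2 D).pred := by
          rw [← pow_succ']
          congr 1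
          exact (Nat.succ_pred_eq_of_pos hpos).symm
        omega
      · have hD' : D = 1 := by omega
        subst hD'
        simp
    have h5 : (w + 1) ^ Nat.clog 2 D ≤ (2 * D) ^ Nat.clog 2 (w + 1) := by
      calc (w + 1) ^ Nat.clog 2 D ≤ (2 ^ Nat.clog 2 (w + 1)) ^ Nat.clog 2 D :=
            Nat.pow_le_pow_left h1 _
        _ = (2 ^ Nat.clog 2 D) ^ Nat.clog 2 (w + 1) := by
            rw [← pow_mul, ← pow_mul, mul_comm]
        _ ≤ (2 * D) ^ Nat.clog 2 (w + 1) := Nat.pow_le_pow_left h2 _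
    have h6 := Nat.mul_le_mul_left (n * D) h5
    omega

/-- Core statement: for a single layered branching program of length `k ≤ D` that does not
compute zero, one of the points `c = 0, ..., n D (w+1)^(clog 2 D)` gives a nonzero value of
the position polynomial. The field only needs `1, ..., n D (w+1)^(clog 2 D)` to be nonzero. -/
theorem core (n D w k : ℕ) (hkD : k ≤ D)
    (hchar : ∀ m : ℕ, 0 < m → m ≤ n * D * (w + 1) ^ Nat.clog 2 D → (m : K) ≠ 0)
    (A : Fin k → Fin n → Matrix (Fin w) (Fin w) K) (u v : Fin w → K)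
    (hne : abpPoly A u v ≠ 0) :
    ∃ c ∈ Finset.range (n * D * (w + 1) ^ Nat.clog 2 D + 1),
      ∑ word : Fin k → Fin n, abpCoeff A u v word *
        ∏ j : Fin k, ((posVal w (Nat.clog 2 D) j c : ℕ) : K) ^ (word j : ℕ) ≠ 0 := by
  classical
  obtain ⟨word₀, hw₀⟩ : ∃ word, abpCoeff A u v word ≠ 0 := by
    by_contra h
    push Not at h
    apply hne
    unfold abpPoly
    exact Finset.sum_eq_zero (fun word _ => by rw [h word, zero_smul])
  have hw : 0 < w := by
    by_contra h0
    have hw0 : w = 0 := by omega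
    subst hw0
    apply hw₀
    simp [abpCoeff, dotProduct]
  set L := Nat.clog 2 D with hL
  have hkL : k ≤ 2 ^ L := le_trans hkD (Nat.le_pow_clog (by norm_num) D)
  have hNk : n * k * (w + 1) ^ L ≤ n * D * (w + 1) ^ L :=
    Nat.mul_le_mul_right _ (Nat.mul_le_mul_left _ hkD)
  have hchar' : ∀ m : ℕ, 0 < m → m ≤ n * k * (w + 1) ^ L → (m : K) ≠ 0 :=
    fun m hm hmB => hchar m hm (hmB.trans hNk)
  set P : K[X] := ∑ word : Fin k → Fin n,
    C (abpCoeff A u v word) * ∏ j : Fin k, posPoly K w L j ^ (word j : ℕ) with hPdef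
  have hP : P ≠ 0 := fun h0 =>
    hw₀ (faithful_pos hw n L k hkL hchar' A u v h0 word₀)
  have hdeg : P.natDegree ≤ n * D * (w + 1) ^ L := by
    apply natDegree_sum_le_of_forall_le
    intro word _
    refine (natDegree_C_mul_le _ _).trans ?_
    exact (word_natDegree_le n L k word).trans hNk
  have hinj : Set.InjOn (fun c : ℕ => (c : K))
      (Finset.range (n * D * (w + 1) ^ L + 1) : Set ℕ) := by
    intro a ha b hb hab
    have ha' : a < n * D * (w + 1) ^ L + 1 := Finset.mem_range.mp ha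
    have hb' : b < n * D * (w + 1) ^ L + 1 := Finset.mem_range.mp hb
    have hab' : (a : K) = (b : K) := hab
    by_contra hne'
    rcases Nat.lt_or_gt_of_ne hne' with hlt | hlt
    · have h1 := hchar (b - a) (by omega) (by omega)
      apply h1
      rw [Nat.cast_sub (le_of_lt hlt), hab', sub_self]
    · have h1 := hchar (a - b) (by omega) (by omega)
      apply h1
      rw [Nat.cast_sub (le_of_lt hlt), hab', sub_self]
  obtain ⟨c, hc, hceval⟩ : ∃ c ∈ Finset.range (n * D * (w + 1) ^ L + 1),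
      eval (c : K) P ≠ 0 := by
    by_contra h
    push Not at h
    apply hP
    apply eq_zero_of_natDegree_lt_card_of_eval_eq_zero' P
      ((Finset.range (n * D * (w + 1) ^ L + 1)).image (fun c : ℕ => (c : K)))
    · intro x hx
      obtain ⟨c, hc, rfl⟩ := Finset.mem_image.mp hx
      exact h c hc
    · rw [Finset.card_image_of_injOn hinj, Finset.card_range]
      omega
  refine ⟨c, hc, ?_⟩
  intro h0
  apply hceval
  rw [← h0, hPdef, eval_finsetSum]
  apply Finset.sum_congr rfl
  intro word _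
  rw [eval_mul, eval_C, eval_prod]
  congr 1
  apply Finset.prod_congr rfl
  intro j _
  rw [eval_pow, eval_posPoly]

/-- Homogeneous case over a field in which `1, ..., n D (w+1)^(clog 2 D)` are nonzero. -/
theorem abp_hitting_hom_of_bound (n D w : ℕ)
    (hchar : ∀ m : ℕ, 0 < m → m ≤ n * D * (w + 1) ^ Nat.clog 2 D → (m : K) ≠ 0)
    (A : Fin D → Fin n → Matrix (Fin w) (Fin w) K) (u v : Fin w → K)
    (hf : abpPoly A u v ≠ 0) :
    ∃ c ∈ Finset.range (n * D * (w + 1) ^ Nat.clog 2 D + 1),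
      FreeAlgebra.lift K (hitMatrix K w D c) (abpPoly A u v) ≠ 0 := by
  obtain ⟨c, hc, hne⟩ := core n D w D le_rfl hchar A u v hf
  refine ⟨c, hc, ?_⟩
  intro h0
  apply hne
  have h1 : (FreeAlgebra.lift K (hitMatrix K w D c) (abpPoly A u v) *ᵥ evec K D D) 0 = 0 := by
    rw [h0]
    simp
  rw [hitMatrix_eq, lift_abpPoly_apply _ D _ _ _ D le_rfl, if_pos rfl] at h1
  exact h1

/-- General case over a field in which `1, ..., n D (w+1)^(clog 2 D)` are nonzero: a polynomial
of degree at most `D` whose homogeneous component of each degree `k` is computed by a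
width-`w` layered branching program of length `k`. -/
theorem abp_hitting_of_bound (n D w : ℕ)
    (hchar : ∀ m : ℕ, 0 < m → m ≤ n * D * (w + 1) ^ Nat.clog 2 D → (m : K) ≠ 0)
    (A : ∀ k : Fin (D + 1), Fin k → Fin n → Matrix (Fin w) (Fin w) K)
    (u v : Fin (D + 1) → Fin w → K)
    (hf : ∑ k : Fin (D + 1), abpPoly (A k) (u k) (v k) ≠ 0) :
    ∃ c ∈ Finset.range (n * D * (w + 1) ^ Nat.clog 2 D + 1),
      FreeAlgebra.lift K (hitMatrix K w D c)
        (∑ k : Fin (D + 1), abpPoly (A k) (u k) (v k)) ≠ 0 := by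
  classical
  obtain ⟨k, hk⟩ : ∃ k, abpPoly (A k) (u k) (v k) ≠ 0 := by
    by_contra h
    push Not at h
    exact hf (Finset.sum_eq_zero fun k _ => h k)
  have hkD : (k : ℕ) ≤ D := Nat.lt_succ_iff.mp k.isLt
  obtain ⟨c, hc, hne⟩ := core n D w k hkD hchar (A k) (u k) (v k) hk
  refine ⟨c, hc, ?_⟩
  intro h0
  apply hne
  have h1 : (FreeAlgebra.lift K (hitMatrix K w D c)
      (∑ k' : Fin (D + 1), abpPoly (A k') (u k') (v k')) *ᵥ evec K D k) 0 = 0 := by
    rw [h0]
    simp
  rw [hitMatrix_eq, map_sum, Matrix.sum_mulVec, Finset.sum_apply] at h1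
  simp only [lift_abpPoly_apply _ D _ _ _ (k : ℕ) hkD] at h1
  rw [Finset.sum_eq_single k] at h1
  · rw [if_pos rfl] at h1
    exact h1
  · intro k' _ hk'
    have : (k' : ℕ) ≠ (k : ℕ) := fun h => hk' (Fin.ext h)
    rw [if_neg this]
  · intro h
    exact absurd (Finset.mem_univ k) h

theorem charZero_bound [CharZero K] (B : ℕ) : ∀ m : ℕ, 0 < m → m ≤ B → (m : K) ≠ 0 :=
  fun m hm _ => Nat.cast_ne_zero.mpr (by omega)

/-- Homogeneous case, characteristic zero. -/
theorem abp_hitting_hom [CharZero K] (n D w : ℕ)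
    (A : Fin D → Fin n → Matrix (Fin w) (Fin w) K) (u v : Fin w → K)
    (hf : abpPoly A u v ≠ 0) :
    ∃ c ∈ Finset.range (n * D * (w + 1) ^ Nat.clog 2 D + 1),
      FreeAlgebra.lift K (hitMatrix K w D c) (abpPoly A u v) ≠ 0 :=
  abp_hitting_hom_of_bound n D w (charZero_bound _) A u v hf

/-- General case, characteristic zero. -/
theorem abp_hitting [CharZero K] (n D w : ℕ)
    (A : ∀ k : Fin (D + 1), Fin k → Fin n → Matrix (Fin w) (Fin w) K)
    (u v : Fin (D + 1) → Fin w → K)
    (hf : ∑ k : Fin (D + 1), abpPoly (A k) (u k) (v k) ≠ 0) :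
    ∃ c ∈ Finset.range (n * D * (w + 1) ^ Nat.clog 2 D + 1),
      FreeAlgebra.lift K (hitMatrix K w D c)
        (∑ k : Fin (D + 1), abpPoly (A k) (u k) (v k)) ≠ 0 :=
  abp_hitting_of_bound n D w (charZero_bound _) A u v hf

end Vale.Agent.Lib.P314.ABP
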