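import Vale.Agent.Lib.P314.ABP.Faithful

namespace Vale.Agent.Lib.P314.ABP

open Polynomial Matrix

/-- The substitution polynomial of position `j` at recursion depth `L`. -/
noncomputable def posPoly (K : Type*) [Semiring K] (w : ℕ) : ℕ → ℕ → K[X]
  | 0, _ => X
  | L + 1, j =>
    if j < 2 ^ L then (posPoly K w L j).comp (X ^ w)
    else (posPoly K w L (j - 2 ^ L)).comp (X ^ w + X ^ (w + 1))

variable {K : Type*} [Field K] {w : ℕ}

theorem posPoly_natDegree_le (w : ℕ) :
    ∀ (L j : ℕ), (posPoly K w L j).natDegree ≤ (w + 1) ^ L := by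
  intro L
  induction L with
  | zero =>
    intro j
    simp [posPoly]
  | succ L ih =>
    intro j
    have h1 : (X ^ w : K[X]).natDegree ≤ w + 1 := by
      rw [natDegree_X_pow]
      omega
    have h2 : (X ^ w + X ^ (w + 1) : K[X]).natDegree ≤ w + 1 := by
      refine (natDegree_add_le _ _).trans ?_
      rw [natDegree_X_pow, natDegree_X_pow]
      omega
    by_cases hj : j < 2 ^ L
    · simp only [posPoly, if_pos hj]
      refine natDegree_comp_le.trans ?_
      rw [pow_succ]
      exact Nat.mul_le_mul (ih j) h1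
    · simp only [posPoly, if_neg hj]
      refine natDegree_comp_le.trans ?_
      rw [pow_succ]
      exact Nat.mul_le_mul (ih _) h2

/-- Degree bound for the monomial attached to a word. -/
theorem word_natDegree_le (n L k : ℕ) (word : Fin k → Fin n) :
    (∏ j : Fin k, posPoly K w L j ^ (word j : ℕ)).natDegree ≤ n * k * (w + 1) ^ L := by
  refine (natDegree_prod_le _ _).trans ?_
  have hterm : ∀ j ∈ (Finset.univ : Finset (Fin k)),
      (posPoly K w L j ^ (word j : ℕ)).natDegree ≤ n * (w + 1) ^ L := by
    intro j _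
    refine natDegree_pow_le.trans ?_
    exact Nat.mul_le_mul (le_of_lt (word j).isLt) (posPoly_natDegree_le w L j)
  refine (Finset.sum_le_card_nsmul _ _ _ hterm).trans ?_
  rw [Finset.card_univ, Fintype.card_fin, smul_eq_mul]
  exact le_of_eq (by ring)

theorem faithful_single (n : ℕ) (B : Fin n → Matrix (Fin w) (Fin w) K) :
    Faithful B (fun i : Fin n => (X : K[X]) ^ (i : ℕ)) := by
  intro u v hsum i₀
  have h := congrArg (fun p : K[X] => p.coeff (i₀ : ℕ)) hsum
  simp only [finsetSum_coeff, coeff_C_mul, coeff_X_pow, coeff_zero] at h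
  rw [Finset.sum_eq_single i₀] at h
  · simpa using h
  · intro b _ hb
    have : (i₀ : ℕ) ≠ (b : ℕ) := fun hh => hb (Fin.ext hh.symm)
    simp [this]
  · intro hh
    exact absurd (Finset.mem_univ i₀) hh

theorem faithful_pos (hw : 0 < w) (n : ℕ) :
    ∀ (L D : ℕ), D ≤ 2 ^ L →
      (∀ m : ℕ, 0 < m → m ≤ n * D * (w + 1) ^ L → (m : K) ≠ 0) →
      ∀ A : Fin D → Fin n → Matrix (Fin w) (Fin w) K,
      Faithful (fun word : Fin D → Fin n => (List.ofFn fun j => A j (word j)).prod)
        (fun word : Fin D → Fin n => ∏ j : Fin D, posPoly K w L j ^ (word j : ℕ)) := by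
  intro L
  induction L with
  | zero =>
    intro D hD _ A
    have hD1 : D ≤ 1 := by simpa using hD
    interval_cases D
    · intro u v hsum e
      rw [Fintype.sum_unique] at hsum
      have he : e = default := Subsingleton.elim _ _
      rw [he]
      simpa using hsum
    · have h := (faithful_single n (fun i => A 0 i)).equiv (Equiv.funUnique (Fin 1) (Fin n))
      have e1 : (fun word : Fin 1 → Fin n => (List.ofFn fun j => A j (word j)).prod)
          = fun e => A 0 ((Equiv.funUnique (Fin 1) (Fin n)) e) := by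
        funext word
        simp [List.ofFn_succ]
      have e2 : (fun word : Fin 1 → Fin n => ∏ j : Fin 1, posPoly K w 0 j ^ (word j : ℕ))
          = fun e => (X : K[X]) ^ ((Equiv.funUnique (Fin 1) (Fin n)) e : ℕ) := by
        funext word
        simp [posPoly]
      rw [e1, e2]
      exact h
  | succ L ih =>
    intro D hD hB A
    have hpow : (w + 1) ^ L ≤ (w + 1) ^ (L + 1) := Nat.pow_le_pow_right (by omega) (by omega)
    by_cases hD' : D ≤ 2 ^ L
    · have hB' : ∀ m : ℕ, 0 < m → m ≤ n * D * (w + 1) ^ L → (m : K) ≠ 0 := by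
        intro m hm hmB
        exact hB m hm (hmB.trans (Nat.mul_le_mul_left _ hpow))
      have h := (ih D hD' hB' A).comp_left hw
      have e2 : (fun word : Fin D → Fin n => ∏ j : Fin D, posPoly K w (L + 1) j ^ (word j : ℕ))
          = fun word => (∏ j : Fin D, posPoly K w L j ^ (word j : ℕ)).comp (X ^ w) := by
        funext word
        rw [Polynomial.prod_comp]
        apply Finset.prod_congr rfl
        intro j _
        rw [pow_comp]
        congr 1
        have hj : (j : ℕ) < 2 ^ L := lt_of_lt_of_le j.isLt hD'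
        simp [posPoly, hj]
      rw [e2]
      exact h
    · obtain ⟨b, rfl⟩ : ∃ b, D = 2 ^ L + b := ⟨D - 2 ^ L, by omega⟩
      have hb : b ≤ 2 ^ L := by
        have : 2 ^ (L + 1) = 2 ^ L + 2 ^ L := by ring
        omega
      have hle1 : n * 2 ^ L * (w + 1) ^ L ≤ n * (2 ^ L + b) * (w + 1) ^ (L + 1) :=
        Nat.mul_le_mul (Nat.mul_le_mul_left _ (Nat.le_add_right _ _)) hpow
      have hle2 : n * b * (w + 1) ^ L ≤ n * (2 ^ L + b) * (w + 1) ^ (L + 1) :=
        Nat.mul_le_mul (Nat.mul_le_mul_left _ (Nat.le_add_left _ _)) hpow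
      have hB1 : ∀ m : ℕ, 0 < m → m ≤ n * 2 ^ L * (w + 1) ^ L → (m : K) ≠ 0 :=
        fun m hm hmB => hB m hm (hmB.trans hle1)
      have hB2 : ∀ m : ℕ, 0 < m → m ≤ n * b * (w + 1) ^ L → (m : K) ≠ 0 :=
        fun m hm hmB => hB m hm (hmB.trans hle2)
      have hdeg : ∀ e₂ : Fin b → Fin n,
          (∏ j : Fin b, posPoly K w L j ^ (e₂ j : ℕ)).natDegree
            ≤ n * (2 ^ L + b) * (w + 1) ^ (L + 1) :=
        fun e₂ => (word_natDegree_le n L b e₂).trans hle2
      have h := ((ih (2 ^ L) le_rfl hB1 (fun j => A (Fin.castAdd b j))).combine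
        (n * (2 ^ L + b) * (w + 1) ^ (L + 1)) hB
        (ih b hb hB2 (fun j => A (Fin.natAdd (2 ^ L) j))) hdeg).equiv
          (Fin.appendEquiv (2 ^ L) b).symm
      have e1 : (fun word : Fin (2 ^ L + b) → Fin n => (List.ofFn fun j => A j (word j)).prod)
          = fun e => (List.ofFn fun j =>
                A (Fin.castAdd b j) (((Fin.appendEquiv (2 ^ L) b).symm e).1 j)).prod *
              (List.ofFn fun j =>
                A (Fin.natAdd (2 ^ L) j) (((Fin.appendEquiv (2 ^ L) b).symm e).2 j)).prod := by
        funext word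
        rw [List.ofFn_add, List.prod_append]
        rfl
      have e2 : (fun word : Fin (2 ^ L + b) → Fin n =>
            ∏ j : Fin (2 ^ L + b), posPoly K w (L + 1) j ^ (word j : ℕ))
          = fun e => (∏ j : Fin (2 ^ L), posPoly K w L j ^
                ((((Fin.appendEquiv (2 ^ L) b).symm e).1 j : Fin n) : ℕ)).comp (X ^ w) *
              (∏ j : Fin b, posPoly K w L j ^
                ((((Fin.appendEquiv (2 ^ L) b).symm e).2 j : Fin n) : ℕ)).comp
                  (X ^ w + X ^ (w + 1)) := by
        funext word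
        rw [Fin.prod_univ_add, Polynomial.prod_comp, Polynomial.prod_comp]
        congr 1
        · apply Finset.prod_congr rfl
          intro j _
          rw [pow_comp]
          have hj : (j : ℕ) < 2 ^ L := j.isLt
          simp [posPoly, hj]
        · apply Finset.prod_congr rfl
          intro j _
          rw [pow_comp]
          simp [posPoly]
      rw [e1, e2]
      exact h

end Vale.Agent.Lib.P314.ABP
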