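import Mathlib

namespace Vale.Agent.Lib.P314.ABP

open Polynomial

/-- Over a field in which the natural numbers `1, ..., B` are nonzero, a polynomial of degree
at most `B` with at most `w` nonzero coefficients that is divisible by `(X - 1) ^ w`
vanishes. -/
theorem sparse_not_dvd_of_bound {K : Type*} [Field K] (B : ℕ)
    (hB : ∀ m : ℕ, 0 < m → m ≤ B → (m : K) ≠ 0) :
    ∀ (w : ℕ) (p : K[X]), p.natDegree ≤ B → (X - 1) ^ w ∣ p → p.support.card ≤ w → p = 0 := by
  intro w
  induction w with
  | zero =>
    intro p _ _ hcard
    have : p.support = ∅ := Finset.card_eq_zero.mp (Nat.le_zero.mp hcard)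
    exact Polynomial.support_eq_empty.mp this
  | succ w ih =>
    intro p hpB hdvd hcard
    by_contra hp
    set m := p.natDegree with hm
    set θ : K[X] := X * derivative p - C (m : K) * p with hθ
    have hcoeff : ∀ j : ℕ, θ.coeff j = ((j : K) - (m : K)) * p.coeff j := by
      intro j
      rw [hθ, coeff_sub, coeff_C_mul]
      cases j with
      | zero => simp
      | succ j =>
        rw [coeff_X_mul, coeff_derivative]
        push_cast
        ring
    have hdvd1 : (X - 1) ^ w ∣ derivative p := by
      have := pow_sub_one_dvd_derivative_of_pow_dvd hdvd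
      simpa using this
    have hdvd2 : (X - 1) ^ w ∣ p := dvd_trans (pow_dvd_pow _ (Nat.le_succ w)) hdvd
    have hdvdθ : (X - 1) ^ w ∣ θ := by
      rw [hθ]
      exact dvd_sub (Dvd.dvd.mul_left hdvd1 _) (Dvd.dvd.mul_left hdvd2 _)
    have hmmem : m ∈ p.support := by
      rw [mem_support_iff]
      exact leadingCoeff_ne_zero.mpr hp
    have hsub : θ.support ⊆ p.support.erase m := by
      intro j hj
      rw [mem_support_iff, hcoeff] at hj
      rw [Finset.mem_erase, mem_support_iff]
      refine ⟨?_, ?_⟩
      · rintro rfl
        simp at hj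
      · intro h0
        simp [h0] at hj
    have hcardθ : θ.support.card ≤ w := by
      have h1 := Finset.card_le_card hsub
      rw [Finset.card_erase_of_mem hmmem] at h1
      omega
    have hθB : θ.natDegree ≤ B := by
      rw [natDegree_le_iff_coeff_eq_zero]
      intro j hj
      rw [hcoeff, coeff_eq_zero_of_natDegree_lt (lt_of_le_of_lt hpB hj), mul_zero]
    have hθ0 : θ = 0 := ih θ hθB hdvdθ hcardθ
    have hzero : ∀ j : ℕ, j ≠ m → p.coeff j = 0 := by
      intro j hj
      rcases Nat.lt_or_ge m j with hlt | hge
      · exact coeff_eq_zero_of_natDegree_lt hlt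
      · have hjm : j < m := lt_of_le_of_ne hge hj
        have h := hcoeff j
        rw [hθ0, coeff_zero] at h
        have hne : ((j : K) - (m : K)) ≠ 0 := by
          have h1 : ((m - j : ℕ) : K) ≠ 0 := hB (m - j) (by omega) (by omega)
          rw [Nat.cast_sub (le_of_lt hjm)] at h1
          intro h2
          apply h1
          rw [← neg_sub, h2, neg_zero]
        rcases mul_eq_zero.mp h.symm with h1 | h1
        · exact absurd h1 hne
        · exact h1
    have hpm : p = C (p.coeff m) * X ^ m := by
      ext j
      rw [coeff_C_mul_X_pow]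
      by_cases hj : j = m
      · simp [hj]
      · simp [hj, hzero j hj]
    have h1 : (X - 1 : K[X]) ∣ p := dvd_trans (dvd_pow_self _ (Nat.succ_ne_zero w)) hdvd
    have h1' : (X - C (1 : K)) ∣ p := by simpa using h1
    rw [dvd_iff_isRoot, IsRoot.def, hpm] at h1'
    simp at h1'
    apply hp
    rw [hpm, h1']
    simp

end Vale.Agent.Lib.P314.ABP
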